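import Vale.Agent.Lib.P150.D3.Defs
import Vale.Agent.Lib.P150.LowerFinal
import Vale.Agent.Lib.P150.Slow.Final

/-!
P150: equivalence of the second formalisation with the first one.
-/

namespace Vale.Agent.P150.D3

open MeasureTheory ProbabilityTheory Filter Topology Matrix

variable {n : ℕ}

/-- spins as booleans -/
def ub : ℤˣ ≃ Bool where
  toFun s := decide (s = 1)
  invFun b := if b then 1 else -1
  left_inv s := by
    rcases Int.units_eq_one_or s with rfl | rfl <;> simp
  right_inv b := by cases b <;> simp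

/-- configurations -/
def ph (n : ℕ) : Spins n ≃ Config n := Equiv.piCongrRight fun _ => ub

theorem ph_apply (x : Spins n) (i : Fin n) : ph n x i = ub (x i) := rfl

theorem spin_ub (s : ℤˣ) : spin (ub s) = ((s : ℤ) : ℝ) := by
  rcases Int.units_eq_one_or s with rfl | rfl <;> simp [ub, spin]

theorem ph_update (x : Spins n) (i : Fin n) (s : ℤˣ) :
    ph n (Function.update x i s) = Function.update (ph n x) i (ub s) := by
  funext j
  rw [ph_apply]
  by_cases h : j = i
  · subst h
    simp
  · rw [Function.update_of_ne h, Function.update_of_ne h, ph_apply]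

/-- the disorder on the pairs `i < j < n` -/
def res (n : ℕ) (a : ℕ → ℕ → ℝ) : Pair n → ℝ := fun p => a p.1.1 p.1.2

theorem weight_eq (β : ℝ) (a : ℕ → ℕ → ℝ) (x : Spins n) :
    weight β a x = gibbsWeight β (res n a) (ph n x) := by
  unfold weight gibbsWeight
  congr 2
  have h := sum_pair_eq (fun i j : Fin n => a i j * spin (ph n x i) * spin (ph n x j))
  have h2 : ∑ p : Pair n, res n a p * spin (ph n x p.1.1) * spin (ph n x p.1.2) =
      ∑ p : Pair n, a p.1.1 p.1.2 * spin (ph n x p.1.1) * spin (ph n x p.1.2) := rfl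
  rw [h2, h]
  simp only [ph_apply, spin_ub]

theorem mu_eq (β : ℝ) (a : ℕ → ℕ → ℝ) (x : Spins n) :
    mu β a x = gibbs β (res n a) (ph n x) := by
  unfold mu gibbs
  rw [weight_eq]
  congr 1
  rw [← Equiv.sum_comp (ph n)]
  exact Finset.sum_congr rfl fun y _ => weight_eq β a y

theorem E_eq (β : ℝ) (a : ℕ → ℕ → ℝ) (f : Spins n → ℝ) :
    E β a f = expect β (res n a) (fun y => f ((ph n).symm y)) := by
  unfold E expect
  rw [← Equiv.sum_comp (ph n)]
  refine Finset.sum_congr rfl fun x _ => ?_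
  rw [mu_eq]
  simp only [Equiv.symm_apply_apply]

theorem sum_units (F : ℤˣ → ℝ) : ∑ s : ℤˣ, F s = F (ub.symm true) + F (ub.symm false) := by
  rw [← Equiv.sum_comp ub.symm, Fintype.sum_bool]

theorem Q_eq (β : ℝ) (a : ℕ → ℕ → ℝ) (i : Fin n) (f : Spins n → ℝ) (x : Spins n) :
    Q β a i f x =
      condE (isingW (skJ β (res n a)) 0) i (fun y => f ((ph n).symm y)) (ph n x) := by
  have hZ : 0 < ∑ y, isingW (skJ β (res n a)) 0 y :=
    Finset.sum_pos (fun x _ => Real.exp_pos _) ⟨fun _ => true, Finset.mem_univ _⟩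
  have hm : ∀ b : Bool, mu β a (Function.update x i (ub.symm b)) =
      isingW (skJ β (res n a)) 0 (Function.update (ph n x) i b) /
        ∑ y, isingW (skJ β (res n a)) 0 y := by
    intro b
    rw [mu_eq, gibbs_eq, ph_update, Equiv.apply_symm_apply]
  have hf : ∀ b : Bool, f (Function.update x i (ub.symm b)) =
      f ((ph n).symm (Function.update (ph n x) i b)) := by
    intro b
    congr 1
    rw [Equiv.eq_symm_apply, ph_update, Equiv.apply_symm_apply]
  unfold Q condE
  rw [sum_units, sum_units, hm, hm, hf, hf]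
  have h1 : 0 < isingW (skJ β (res n a)) 0 (Function.update (ph n x) i true) := Real.exp_pos _
  have h2 : 0 < isingW (skJ β (res n a)) 0 (Function.update (ph n x) i false) := Real.exp_pos _
  field_simp

theorem L_eq (β : ℝ) (a : ℕ → ℕ → ℝ) (f : Spins n → ℝ) (x : Spins n) :
    L β a f x = (generator β (res n a) *ᵥ (fun y => f ((ph n).symm y))) (ph n x) := by
  rw [generator_eq, genMat_mulVec]
  unfold L
  refine Finset.sum_congr rfl fun i _ => ?_
  rw [Q_eq, Equiv.symm_apply_apply]

theorem L_pow (β : ℝ) (a : ℕ → ℕ → ℝ) (k : ℕ) (f : Spins n → ℝ) (x : Spins n) :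
    ((L β a)^[k] f) x =
      ((generator β (res n a)) ^ k *ᵥ (fun y => f ((ph n).symm y))) (ph n x) := by
  induction k generalizing f with
  | zero => simp
  | succ k ih =>
    rw [Function.iterate_succ_apply, ih, pow_succ, ← Matrix.mulVec_mulVec]
    congr 2
    funext y
    rw [L_eq, Equiv.apply_symm_apply]

set_option backward.isDefEq.respectTransparency false in
open scoped Matrix.Norms.Operator in
theorem hasSum_exp_mulVec {m : Type*} [Fintype m] [DecidableEq m] (A : Matrix m m ℝ)
    (v : m → ℝ) (y : m) :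
    HasSum (fun k : ℕ => ((k.factorial : ℝ)⁻¹) * ((A ^ k) *ᵥ v) y)
      ((NormedSpace.exp A *ᵥ v) y) := by
  have h := NormedSpace.exp_series_hasSum_exp' (𝕂 := ℝ) A
  have h2 : ∀ z : m, HasSum (fun k : ℕ => (((k.factorial : ℝ)⁻¹ • A ^ k) : Matrix m m ℝ) y z * v z)
      ((NormedSpace.exp A) y z * v z) := by
    intro z
    have h3 := h.map (Matrix.entryAddMonoidHom ℝ y z) (continuous_id.matrix_elem y z)
    exact h3.mul_right (v z)
  have h4 := hasSum_sum (s := Finset.univ) fun z _ => h2 z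
  refine h4.congr_fun ?_
  intro k
  change _ = ∑ z, ((k.factorial : ℝ)⁻¹ • A ^ k) y z * v z
  simp only [Matrix.smul_apply, smul_eq_mul, Matrix.mulVec, dotProduct, Finset.mul_sum, mul_assoc]

theorem P_eq (β : ℝ) (a : ℕ → ℕ → ℝ) (t : ℝ) (f : Spins n → ℝ) (x : Spins n) :
    P β a t f x = (kernel β (res n a) t *ᵥ (fun y => f ((ph n).symm y))) (ph n x) := by
  have h3 := hasSum_exp_mulVec (t • generator β (res n a)) (fun y => f ((ph n).symm y)) (ph n x)
  refine HasSum.tsum_eq (h3.congr_fun fun k => ?_)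
  rw [L_pow, smul_pow, Matrix.smul_mulVec, Pi.smul_apply, smul_eq_mul]
  ring

/-- total variation distance through events -/
theorem tv_iff {m : Type*} [Fintype m] (p q : m → ℝ) (h : ∑ y, p y = ∑ y, q y) (c : ℝ) :
    (∀ A : Set m, |∑ y, A.indicator (fun y => p y - q y) y| ≤ c) ↔
      (∑ y, |p y - q y|) / 2 ≤ c := by
  classical
  have h0 : ∑ y, (p y - q y) = 0 := by
    rw [Finset.sum_sub_distrib, h, sub_self]
  have hsplit : ∀ A : Set m, ∑ y, A.indicator (fun y => p y - q y) y +
      ∑ y, Aᶜ.indicator (fun y => p y - q y) y = 0 := by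
    intro A
    rw [← Finset.sum_add_distrib, ← h0]
    refine Finset.sum_congr rfl fun y _ => ?_
    exact congrFun (Set.indicator_self_add_compl A fun y => p y - q y) y
  constructor
  · intro hA
    have h1 := hA {y | 0 ≤ p y - q y}
    have h2 : ∑ y, |p y - q y| =
        ∑ y, ({y | 0 ≤ p y - q y} : Set m).indicator (fun y => p y - q y) y -
          ∑ y, ({y | 0 ≤ p y - q y} : Set m)ᶜ.indicator (fun y => p y - q y) y := by
      rw [← Finset.sum_sub_distrib]
      refine Finset.sum_congr rfl fun y _ => ?_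
      by_cases hy : 0 ≤ p y - q y
      · rw [Set.indicator_of_mem (show y ∈ {y | 0 ≤ p y - q y} from hy),
          Set.indicator_of_notMem (show y ∉ {y | 0 ≤ p y - q y}ᶜ from fun hn => hn hy),
          abs_of_nonneg hy, sub_zero]
      · rw [Set.indicator_of_notMem (show y ∉ {y | 0 ≤ p y - q y} from hy),
          Set.indicator_of_mem (show y ∈ {y | 0 ≤ p y - q y}ᶜ from hy),
          abs_of_neg (not_le.1 hy), zero_sub]
    have h3 := hsplit {y | 0 ≤ p y - q y}
    have h4 := le_abs_self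
      (∑ y, ({y | 0 ≤ p y - q y} : Set m).indicator (fun y => p y - q y) y)
    linarith
  · intro hc A
    have h3 := hsplit A
    have h4 : |∑ y, A.indicator (fun y => p y - q y) y| +
        |∑ y, Aᶜ.indicator (fun y => p y - q y) y| ≤ ∑ y, |p y - q y| := by
      refine (add_le_add (Finset.abs_sum_le_sum_abs _ _) (Finset.abs_sum_le_sum_abs _ _)).trans ?_
      rw [← Finset.sum_add_distrib]
      refine Finset.sum_le_sum fun y _ => ?_
      by_cases hy : y ∈ A
      · rw [Set.indicator_of_mem hy,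
          Set.indicator_of_notMem (show y ∉ Aᶜ from fun hn => hn hy), abs_zero, add_zero]
      · rw [Set.indicator_of_notMem hy, Set.indicator_of_mem (show y ∈ Aᶜ from hy), abs_zero,
          zero_add]
    have h5 : ∑ y, Aᶜ.indicator (fun y => p y - q y) y =
        - ∑ y, A.indicator (fun y => p y - q y) y := by linarith
    rw [h5, abs_neg] at h4
    linarith

theorem kernel_row (β : ℝ) (g : Pair n → ℝ) (t : ℝ) (y : Config n) :
    ∑ z, kernel β g t y z = 1 := by
  have h := heatK_const (w := isingW (skJ β g) 0) (fun x => Real.exp_pos _) t 1 y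
  have h2 : kernel β g t = heatK (isingW (skJ β g) 0) t := by
    unfold kernel heatK
    rw [generator_eq]
  rw [h2]
  simpa [Matrix.mulVec, dotProduct] using h

theorem gibbs_sum (β : ℝ) (g : Pair n → ℝ) : ∑ z, gibbs β g z = 1 := by
  have hZ : 0 < ∑ y, isingW (skJ β g) 0 y :=
    Finset.sum_pos (fun x _ => Real.exp_pos _) ⟨fun _ => true, Finset.mem_univ _⟩
  simp only [gibbs_eq]
  rw [← Finset.sum_div, div_self hZ.ne']

theorem Mixed_iff (β : ℝ) (a : ℕ → ℕ → ℝ) (t : ℝ) :
    Mixed n β a t ↔ ∀ y : Config n, tvDist β (res n a) t y ≤ 1 / 4 := by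
  have key : ∀ (x : Spins n) (A : Set (Spins n)),
      P β a t (A.indicator 1) x - E β a (A.indicator 1) =
        ∑ y, ((ph n).symm ⁻¹' A).indicator
          (fun y => kernel β (res n a) t (ph n x) y - gibbs β (res n a) y) y := by
    intro x A
    rw [P_eq, E_eq]
    unfold expect
    simp only [Matrix.mulVec, dotProduct]
    rw [← Finset.sum_sub_distrib]
    refine Finset.sum_congr rfl fun y _ => ?_
    by_cases hy : (ph n).symm y ∈ A
    · rw [Set.indicator_of_mem hy, Set.indicator_of_mem (show y ∈ (ph n).symm ⁻¹' A from hy)]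
      simp
    · rw [Set.indicator_of_notMem hy,
        Set.indicator_of_notMem (show y ∉ (ph n).symm ⁻¹' A from hy)]
      simp
  have hsum : ∀ y : Config n, ∑ z, kernel β (res n a) t y z = ∑ z, gibbs β (res n a) z :=
    fun y => by rw [kernel_row, gibbs_sum]
  unfold Mixed
  constructor
  · intro h y
    refine (tv_iff _ _ (hsum y) (1 / 4)).1 fun A => ?_
    have h1 := h ((ph n).symm y) (ph n ⁻¹' A)
    rw [key, Equiv.apply_symm_apply, ← Set.preimage_comp, Equiv.self_comp_symm,
      Set.preimage_id] at h1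
    exact h1
  · intro h x A
    rw [key]
    exact (tv_iff _ _ (hsum (ph n x)) (1 / 4)).2 (h (ph n x)) _

theorem tmix_eq (β : ℝ) (a : ℕ → ℕ → ℝ) : tmix n β a = mixingTime β (res n a) := by
  unfold tmix mixingTime
  simp only [Mixed_iff]

theorem gap_eq (hn : 1 ≤ n) (β : ℝ) (a : ℕ → ℕ → ℝ) :
    gap n β a = spectralGap β (res n a) := by
  obtain ⟨g, hg⟩ : ∃ g, g = res n a := ⟨_, rfl⟩
  have hV : ∀ f : Spins n → ℝ, E β a (fun x => (f x - E β a f) ^ 2) =
      variance β g (fun y => f ((ph n).symm y)) := by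
    intro f
    rw [E_eq β a f, E_eq]
    unfold variance
    rw [hg]
  have hD : ∀ f : Spins n → ℝ, E β a (fun x => f x * -(L β a f x)) =
      dirichlet β g (fun y => f ((ph n).symm y)) := by
    intro f
    rw [E_eq]
    unfold dirichlet
    rw [hg]
    congr 1
    funext y
    rw [L_eq, Equiv.apply_symm_apply]
  have hset : {γ : ℝ | ∀ f : Spins n → ℝ,
      γ * E β a (fun x => (f x - E β a f) ^ 2) ≤ E β a (fun x => f x * -(L β a f x))} =
      lowerBounds {r : ℝ | ∃ f : Config n → ℝ, variance β g f ≠ 0 ∧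
        r = dirichlet β g f / variance β g f} := by
    ext γ
    constructor
    · rintro hγ r ⟨f, hf, rfl⟩
      have h1 := hγ (fun x => f (ph n x))
      rw [hV, hD] at h1
      simp only [Equiv.apply_symm_apply] at h1
      rwa [le_div_iff₀ (lt_of_le_of_ne (Slow.variance_nonneg' β g f) hf.symm)]
    · intro hγ f
      rw [hV, hD]
      by_cases hf : variance β g (fun y => f ((ph n).symm y)) = 0
      · rw [hf, mul_zero]
        exact Slow.dirichlet_nonneg' β g _
      · have h1 := hγ ⟨_, hf, rfl⟩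
        rwa [le_div_iff₀ (lt_of_le_of_ne (Slow.variance_nonneg' β g _) (Ne.symm hf))] at h1
  unfold gap spectralGap
  rw [hset, ← hg]
  refine csSup_lowerBounds_eq_csInf ⟨0, ?_⟩ ⟨_, _, variance_pos_of β g ⟨0, by omega⟩, rfl⟩
  rintro r ⟨f, _, rfl⟩
  exact div_nonneg (Slow.dirichlet_nonneg' β g f) (Slow.variance_nonneg' β g f)

theorem gap_pos (hn : 1 ≤ n) (β : ℝ) (a : ℕ → ℕ → ℝ) : 0 < gap n β a := by
  rw [gap_eq hn]
  have h := Slow.log_two_le_mixing hn β (res n a)
  have h2 : 0 < Real.log 2 := Real.log_pos (by norm_num)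
  have h3 : 0 ≤ mixingTime β (res n a) := by
    unfold mixingTime
    exact Real.sInf_nonneg fun t ht => ht.1
  by_contra hcon
  have := mul_nonpos_of_nonneg_of_nonpos h3 (not_lt.1 hcon)
  linarith

theorem gap_le_one (hn : 1 ≤ n) (β : ℝ) (a : ℕ → ℕ → ℝ) : gap n β a ≤ 1 := by
  rw [gap_eq hn]
  exact spectralGap_le_one β _ hn

section Law

variable {Ω : Type*} [MeasurableSpace Ω] {Pr : Measure Ω} [IsProbabilityMeasure Pr]
  {g : ℕ → ℕ → Ω → ℝ}

theorem law_eq (hlaw : ∀ i j, i < j → HasLaw (g i j) (gaussianReal 0 1) Pr)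
    (hind : iIndepFun (fun p : {p : ℕ × ℕ // p.1 < p.2} => g p.1.1 p.1.2) Pr) (n : ℕ) :
    AEMeasurable (fun ω => res n (fun i j => g i j ω)) Pr ∧
      Pr.map (fun ω => res n (fun i j => g i j ω)) = disorder n := by
  let ι : Pair n → {p : ℕ × ℕ // p.1 < p.2} := fun p => ⟨(p.1.1, p.1.2), p.2⟩
  have hι : Function.Injective ι := by
    intro p q h
    have h1 : ((p.1.1 : ℕ), (p.1.2 : ℕ)) = ((q.1.1 : ℕ), (q.1.2 : ℕ)) := congrArg Subtype.val h
    have h2 := congrArg Prod.fst h1
    have h3 := congrArg Prod.snd h1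
    exact Subtype.ext (Prod.ext (Fin.ext h2) (Fin.ext h3))
  have h1 := hind.precomp hι
  have hm : ∀ p : Pair n, AEMeasurable (g (p.1.1 : ℕ) (p.1.2 : ℕ)) Pr := fun p =>
    (hlaw _ _ p.2).aemeasurable
  refine ⟨aemeasurable_pi_lambda _ hm, ?_⟩
  have h2 := (iIndepFun_iff_map_fun_eq_pi_map hm).1 h1
  unfold disorder
  refine Eq.trans h2 ?_
  congr 1
  funext p
  exact (hlaw _ _ p.2).map_eq

theorem prob_le (hlaw : ∀ i j, i < j → HasLaw (g i j) (gaussianReal 0 1) Pr)
    (hind : iIndepFun (fun p : {p : ℕ × ℕ // p.1 < p.2} => g p.1.1 p.1.2) Pr) (n : ℕ)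
    (S : Set (Pair n → ℝ)) :
    Pr {ω | res n (fun i j => g i j ω) ∈ S} ≤ disorder n S := by
  obtain ⟨h1, h2⟩ := law_eq hlaw hind n
  have h3 := Measure.le_map_apply h1 S
  rwa [h2] at h3

end Law

end Vale.Agent.P150.D3
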