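import Mathlib

/-!
P150, second formalisation of the heat-bath dynamics of the Sherrington-Kirkpatrick model:
conditional expectations under the Gibbs measure, semigroup `exp (t L)` acting on functions, total
variation distance through events, spectral gap as the best Poincaré constant.  The disorder is an array
`a i j` (only the entries with `i < j < n` are used).
-/

namespace Vale.Agent.P150.D3

/-- Spin configurations `x ∈ {1, -1} ^ n`. -/
abbrev Spins (n : ℕ) : Type := Fin n → ℤˣ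

/-- The unnormalised Gibbs weight `exp (β n^{-1/2} ∑_{i<j} a_ij x_i x_j)`. -/
noncomputable def weight {n : ℕ} (β : ℝ) (a : ℕ → ℕ → ℝ) (x : Spins n) : ℝ :=
  Real.exp (β / √n * ∑ i : Fin n, ∑ j : Fin n,
    if i < j then a i j * ((x i : ℤ) : ℝ) * ((x j : ℤ) : ℝ) else 0)

/-- The Gibbs measure `μ`. -/
noncomputable def mu {n : ℕ} (β : ℝ) (a : ℕ → ℕ → ℝ) (x : Spins n) : ℝ :=
  weight β a x / ∑ y : Spins n, weight β a y

/-- The expectation of `f` under `μ`. -/
noncomputable def E {n : ℕ} (β : ℝ) (a : ℕ → ℕ → ℝ) (f : Spins n → ℝ) : ℝ :=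
  ∑ x, mu β a x * f x

/-- `Q_i f`, the conditional expectation of `f` under `μ` given all spins but the `i`-th. -/
noncomputable def Q {n : ℕ} (β : ℝ) (a : ℕ → ℕ → ℝ) (i : Fin n) (f : Spins n → ℝ)
    (x : Spins n) : ℝ :=
  (∑ s : ℤˣ, mu β a (Function.update x i s) * f (Function.update x i s)) /
    ∑ s : ℤˣ, mu β a (Function.update x i s)

/-- The generator `L f = ∑_i (Q_i f - f)`: every site is resampled at rate one. -/
noncomputable def L {n : ℕ} (β : ℝ) (a : ℕ → ℕ → ℝ) (f : Spins n → ℝ) (x : Spins n) : ℝ :=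
  ∑ i, (Q β a i f x - f x)

/-- The semigroup `P_t = exp (t L) = ∑_k t^k L^k / k!`: `P_t f x` is the expectation of `f` at time
`t` when the dynamics starts from `x`. -/
noncomputable def P {n : ℕ} (β : ℝ) (a : ℕ → ℕ → ℝ) (t : ℝ) (f : Spins n → ℝ)
    (x : Spins n) : ℝ :=
  ∑' k : ℕ, t ^ k / (k.factorial : ℝ) * ((L β a)^[k] f) x

/-- `max_x ‖P_t(x, ·) - μ‖_TV ≤ 1/4`: for every starting point `x` and every event `A` the
probabilities `P_t(x, A)` and `μ(A)` differ by at most `1/4`. -/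
def Mixed (n : ℕ) (β : ℝ) (a : ℕ → ℕ → ℝ) (t : ℝ) : Prop :=
  ∀ (x : Spins n) (A : Set (Spins n)),
    |P β a t (A.indicator 1) x - E β a (A.indicator 1)| ≤ 1 / 4

/-- The mixing time `t_mix`. -/
noncomputable def tmix (n : ℕ) (β : ℝ) (a : ℕ → ℕ → ℝ) : ℝ :=
  sInf {t : ℝ | 0 ≤ t ∧ Mixed n β a t}

/-- The spectral gap of `-L` on `L²(μ)`: the largest `γ` with `γ Var_μ f ≤ ⟨f, -L f⟩_μ` for all
`f`. -/
noncomputable def gap (n : ℕ) (β : ℝ) (a : ℕ → ℕ → ℝ) : ℝ :=
  sSup {γ : ℝ | ∀ f : Spins n → ℝ,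
    γ * E β a (fun x => (f x - E β a f) ^ 2) ≤ E β a (fun x => f x * -(L β a f x))}

end Vale.Agent.P150.D3
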